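import Mathlib

/-! Kaehler metrics on open subsets of complex affine space, in the global coordinates. -/

namespace Vale.Agent.P250

open scoped ContDiff

variable {n : ℕ}

/-- `dg g x c a b` is the derivative at `x`, in the direction `c`, of the coefficient `g(a,b)`. -/
noncomputable def dg (g : (Fin n → ℂ) → (Fin n → ℂ) →L[ℝ] (Fin n → ℂ) →L[ℝ] ℝ)
    (x c a b : Fin n → ℂ) : ℝ :=
  fderiv ℝ (fun y => g y a b) x c

/-- `g` is a smooth Riemannian metric on `U`, invariant under multiplication by `i`, whose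
fundamental form `(a, b) ↦ g(i a, b)` is closed. -/
structure IsKahlerOn (U : Set (Fin n → ℂ))
    (g : (Fin n → ℂ) → (Fin n → ℂ) →L[ℝ] (Fin n → ℂ) →L[ℝ] ℝ) : Prop where
  smooth : ContDiffOn ℝ ∞ g U
  symm : ∀ x ∈ U, ∀ a b, g x a b = g x b a
  pos : ∀ x ∈ U, ∀ a, a ≠ 0 → 0 < g x a a
  herm : ∀ x ∈ U, ∀ a b, g x (Complex.I • a) (Complex.I • b) = g x a b
  closed : ∀ x ∈ U, ∀ a b c,
    dg g x a (Complex.I • b) c + dg g x b (Complex.I • c) a + dg g x c (Complex.I • a) b = 0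

/-- `Γ` is the Christoffel map of the Levi-Civita connection of `g` on `U` (Koszul formula). -/
def IsLeviCivitaOn (U : Set (Fin n → ℂ))
    (g : (Fin n → ℂ) → (Fin n → ℂ) →L[ℝ] (Fin n → ℂ) →L[ℝ] ℝ)
    (Γ : (Fin n → ℂ) → (Fin n → ℂ) → (Fin n → ℂ) → (Fin n → ℂ)) : Prop :=
  ∀ x ∈ U, ∀ a b c, 2 * g x (Γ x a b) c = dg g x a b c + dg g x b a c - dg g x c a b

/-- The curvature tensor `R(u,v)w` at `x` of the connection with Christoffel map `Γ`. -/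
noncomputable def riem (Γ : (Fin n → ℂ) → (Fin n → ℂ) → (Fin n → ℂ) → (Fin n → ℂ))
    (x u v w : Fin n → ℂ) : Fin n → ℂ :=
  fderiv ℝ (fun y => Γ y v w) x u - fderiv ℝ (fun y => Γ y u w) x v +
    Γ x u (Γ x v w) - Γ x v (Γ x u w)

/-- The sectional curvature at `x` of the real plane spanned by `u` and `v`. -/
noncomputable def sec (g : (Fin n → ℂ) → (Fin n → ℂ) →L[ℝ] (Fin n → ℂ) →L[ℝ] ℝ)
    (Γ : (Fin n → ℂ) → (Fin n → ℂ) → (Fin n → ℂ) → (Fin n → ℂ)) (x u v : Fin n → ℂ) : ℝ :=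
  g x (riem Γ x u v v) u / (g x u u * g x v v - g x u v ^ 2)

/-- Every initial condition has a geodesic in `U` defined for all real times. -/
def GeodComplete (U : Set (Fin n → ℂ))
    (Γ : (Fin n → ℂ) → (Fin n → ℂ) → (Fin n → ℂ) → (Fin n → ℂ)) : Prop :=
  ∀ p ∈ U, ∀ v : Fin n → ℂ, ∃ γ γ' : ℝ → Fin n → ℂ, γ 0 = p ∧ γ' 0 = v ∧
    ∀ t, γ t ∈ U ∧ HasDerivAt γ (γ' t) t ∧ HasDerivAt γ' (-Γ (γ t) (γ' t) (γ' t)) t

/-- All real sectional curvatures lie between two negative constants. -/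
def Pinched (U : Set (Fin n → ℂ))
    (g : (Fin n → ℂ) → (Fin n → ℂ) →L[ℝ] (Fin n → ℂ) →L[ℝ] ℝ)
    (Γ : (Fin n → ℂ) → (Fin n → ℂ) → (Fin n → ℂ) → (Fin n → ℂ)) : Prop :=
  ∃ a b : ℝ, 0 < a ∧ a ≤ b ∧ ∀ x ∈ U, ∀ u v : Fin n → ℂ, LinearIndependent ℝ ![u, v] →
    -b ≤ sec g Γ x u v ∧ sec g Γ x u v ≤ -a

/-- `U` is biholomorphic to a bounded domain of the same dimension. -/
def BiholBounded (U : Set (Fin n → ℂ)) : Prop :=
  ∃ (D : Set (Fin n → ℂ)) (F G : (Fin n → ℂ) → (Fin n → ℂ)),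
    IsOpen D ∧ IsConnected D ∧ Bornology.IsBounded D ∧
    DifferentiableOn ℂ F U ∧ DifferentiableOn ℂ G D ∧ Set.MapsTo F U D ∧ Set.MapsTo G D U ∧
    (∀ x ∈ U, G (F x) = x) ∧ ∀ y ∈ D, F (G y) = y

end Vale.Agent.P250
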